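import Vale.Agent.P014U.Bt.Defs
import Vale.Agent.P014U.Ba.Dv
import Vale.Agent.P014U.X4M.TE.Tate
import Vale.Agent.P014T.Bt.Ac

/-! # P014U, block B: the points of order a power of `pp` fixed by a complex conjugation -/

set_option autoImplicit false
set_option linter.all false

open NumberField
open scoped Classical

noncomputable section

namespace Vale.Agent.P014U.Bt

variable [Pp]

export Vale.Agent.P014T.Bt (rel_card rel_map p0 hq ker_dd)

open Vale.Agent.P022 (Qb GQ)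
open Vale.Agent.P022K.G2 (In)
open X4M.TE hiding Qb GQ
open P027M.K WeierstrassCurve.Affine
open X4S.Ga (K O mem_O)
open P014T.Wm (Fx)
open Ba (Dv)
open P025H816 (tors)

section hm

variable {Y : Type} [AddCommGroup Y]

theorem pk0 : (pp : K) ≠ 0 := Nat.cast_ne_zero.2 pp_ne

theorem pr1 : (1 : ℝ) < pp := Nat.one_lt_cast.2 one_lt

theorem ex_lv (s : K) : ∃ (k : ℕ) (a : ℤ_[pp]), s = a / pp ^ k := by
  obtain ⟨k, hk⟩ := pow_unbounded_of_one_lt ‖s‖ pr1
  have := pk0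
  have := pr1
  refine ⟨k, ⟨s * pp ^ k, ?_⟩, by simp [this]⟩
  rw [norm_mul, norm_pow, Padic.norm_p, inv_pow, ← div_eq_mul_inv, div_le_one (by positivity)]
  exact hk.le

theorem cp_up (x : TM pp Y) (k j : ℕ) : TM.cp (k + j) ((pp : ℤ_[pp]) ^ j • x) = TM.cp k x :=
  (TM.cp_pow_smul x j (k + j)).trans (TM.cp_add x k j)

theorem cp_congr (x : TM pp Y) {k j : ℕ} {a b : ℤ_[pp]} (h : (a : K) / pp ^ k = b / pp ^ j) :
    TM.cp k (a • x) = TM.cp j (b • x) := by
  have e : (pp : ℤ_[pp]) ^ j * a = pp ^ k * b := Subtype.ext (by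
    rw [div_eq_div_iff (pow_ne_zero _ pk0) (pow_ne_zero _ pk0)] at h
    push_cast
    linear_combination h)
  rw [← cp_up (a • x) k j, ← cp_up (b • x) j k, ← mul_smul, ← mul_smul, e, add_comm]

/-- the map on `K` -/
def h0 (x : TM pp Y) : K →+ Y :=
  AddMonoidHom.mk' (fun s => TM.cp (ex_lv s).choose ((ex_lv s).choose_spec.choose • x)) fun s t => by
    obtain ⟨k, a, rfl⟩ := ex_lv s
    obtain ⟨j, b, rfl⟩ := ex_lv t
    rw [cp_congr x (ex_lv _).choose_spec.choose_spec.symm,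
      cp_congr x (ex_lv _).choose_spec.choose_spec.symm, ← cp_up (a • x) k j, ← cp_up (b • x) j k,
      add_comm j k, ← map_add, ← mul_smul, ← mul_smul, ← add_smul]
    refine cp_congr x ((ex_lv _).choose_spec.choose_spec.symm.trans ?_)
    have := pk0
    push_cast
    field_simp
    ring

theorem h0_eq (x : TM pp Y) (k : ℕ) (a : ℤ_[pp]) : h0 x (a / pp ^ k) = TM.cp k (a • x) :=
  cp_congr x (ex_lv _).choose_spec.choose_spec.symm

/-- **the map `K / O → Y` given by an element of the Tate module** -/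
def hm (x : TM pp Y) : Dv →+ Y :=
  QuotientAddGroup.lift O (h0 x) fun s hs => by
    have := h0_eq x 0 ⟨s, hs⟩
    rwa [pow_zero, div_one, TM.cp_zero] at this

theorem hm_mk (x : TM pp Y) (k : ℕ) (a : ℤ_[pp]) :
    hm x ((a / pp ^ k : K) : Dv) = TM.cp k (a • x) := h0_eq x k a

theorem ex_dv (s : Dv) : ∃ (k : ℕ) (a : ℤ_[pp]), s = ((a / pp ^ k : K) : Dv) := by
  obtain ⟨s, rfl⟩ := QuotientAddGroup.mk_surjective s
  obtain ⟨k, a, rfl⟩ := ex_lv s
  exact ⟨k, a, rfl⟩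

theorem mem_hm {x : TM pp Y} {y : Y} :
    y ∈ (hm x).range ↔ ∃ (k : ℕ) (a : ℤ_[pp]), TM.cp k (a • x) = y :=
  ⟨fun ⟨s, e⟩ => by obtain ⟨k, a, rfl⟩ := ex_dv s; exact ⟨k, a, (hm_mk x k a).symm.trans e⟩,
    fun ⟨k, a, e⟩ => ⟨_, (hm_mk x k a).trans e⟩⟩

theorem hm_inj {x : TM pp Y} (h : TM.cp 1 x ≠ 0) : Function.Injective (hm x) := by
  refine (injective_iff_map_eq_zero _).2 fun s hs => ?_
  obtain ⟨k, a, rfl⟩ := ex_dv s
  rw [hm_mk] at hs
  rw [QuotientAddGroup.eq_zero_iff]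
  induction k generalizing a with
  | zero => simpa [mem_O] using a.2
  | succ k ih =>
    by_cases u : IsUnit a
    · obtain ⟨b, hb⟩ := u.exists_left_inv
      refine absurd ?_ h
      rw [← one_smul ℤ_[pp] x, ← hb, mul_smul, TM.cp_smul, ← TM.cp_add (a • x) 1 k, add_comm 1 k, hs,
        nsmul_zero, nsmul_zero]
    · obtain ⟨b, rfl⟩ := (PadicInt.norm_lt_one_iff_dvd a).1 (PadicInt.not_isUnit_iff.1 u)
      have e : (((pp : ℤ_[pp]) * b : ℤ_[pp]) : K) / pp ^ (k + 1) = b / pp ^ k := by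
        have := pk0
        push_cast
        field_simp
        ring
      rw [e]
      exact ih b ((cp_congr x e).symm.trans hs)

theorem hm_div {x : TM pp Y} {y : Y} (h : y ∈ (hm x).range) : ∃ z ∈ (hm x).range, pp • z = y := by
  obtain ⟨k, a, rfl⟩ := mem_hm.1 h
  exact ⟨_, mem_hm.2 ⟨k + 1, a, rfl⟩, TM.cp_succ _ _⟩

end hm

variable (A B : ℤ)

/-- the points of order a power of `pp` which are fixed by `c` -/
def Ac (c : GQ) : AddSubgroup (Pt A B) := T2 A B ⊓ (ga c).eqLocus (AddMonoidHom.id _)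

/-- the rational points of order a power of `pp` -/
def Ag : AddSubgroup (Pt A B) := T2 A B ⊓ Fx A B ⊤

/-- `g` is a basis of the part of the Tate module fixed by `c` -/
def Gp (c : GQ) (g : Tm A B) : Prop := rho A B c g = g ∧ TM.cp 1 g ≠ 0

variable {A B} {c : GQ} {g : Tm A B}

theorem mem_Ac {Q : Pt A B} : Q ∈ Ac A B c ↔ (∃ k : ℕ, pp ^ k • Q = 0) ∧ ga c Q = Q := Iff.rfl

theorem mem_Ag {Q : Pt A B} : Q ∈ Ag A B ↔ (∃ k : ℕ, pp ^ k • Q = 0) ∧ ∀ g, ga g Q = Q :=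
  ⟨fun h => ⟨h.1, fun g => h.2 g trivial⟩, fun h => ⟨h.1, fun g _ => h.2 g⟩⟩

theorem Ag_le (c : GQ) : Ag A B ≤ Ac A B c := fun _ h => ⟨h.1, h.2 c trivial⟩

theorem Gp.le (h : Gp A B c g) : (hm g).range ≤ Ac A B c := fun Q hQ => by
  obtain ⟨k, a, rfl⟩ := mem_hm.1 hQ
  exact mem_Ac.2 ⟨⟨k, TM.pow_smul_cp _ _⟩, by rw [← cp_rho, map_smul, h.1]⟩

variable (hD : 4 * A ^ 3 + 27 * B ^ 2 ≠ 0)
include hD

/-- the fixed part has rank one -/
theorem Gp.line (hc : P022.St.IsConj c) (h : Gp A B c g) {x : Tm A B} (hx : rho A B c x = x) :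
    ∃ a : ℤ_[pp], x = a • g := by
  let b := bs (hq hD)
  have f : ∀ y : Tm A B, rho A B c y = y →
      (mt (hq hD) c).mulVec (b.repr y) = b.repr y := fun y hy =>
    (LinearMap.toMatrix_mulVec_repr b b _ y).trans (by rw [hy])
  have d := det_conj (hq hD) hc
  have a0 := congrFun (f g h.1) 0
  have a1 := congrFun (f g h.1) 1
  have b0 := congrFun (f x hx) 0
  have b1 := congrFun (f x hx) 1
  simp only [Matrix.mulVec, dotProduct, Fin.sum_univ_two, Matrix.det_fin_two] at a0 a1 b0 b1 d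
  have e : b.repr g 0 * b.repr x 1 = b.repr g 1 * b.repr x 0 := by
    have : 2 * (b.repr g 0 * b.repr x 1 - b.repr g 1 * b.repr x 0) = 0 := by
      linear_combination (b.repr g 0 * b.repr x 1 - b.repr g 1 * b.repr x 0) * d -
        b.repr x 1 * a0 - (mt (hq hD) c 0 0 * b.repr g 0 + mt (hq hD) c 0 1 * b.repr g 1) * b1 +
        b.repr x 0 * a1 + (mt (hq hD) c 1 0 * b.repr g 0 + mt (hq hD) c 1 1 * b.repr g 1) * b0
    exact sub_eq_zero.1 ((mul_eq_zero.1 this).resolve_left two_ne_zero)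
  by_cases u0 : IsUnit (b.repr g 0)
  · obtain ⟨v, hv⟩ := u0.exists_left_inv
    refine ⟨v * b.repr x 0, b.ext_elem (Fin.forall_fin_two.2 ⟨?_, ?_⟩)⟩ <;>
      simp only [map_smul, Finsupp.smul_apply, smul_eq_mul]
    · linear_combination -b.repr x 0 * hv
    · linear_combination v * e - b.repr x 1 * hv
  by_cases u1 : IsUnit (b.repr g 1)
  · obtain ⟨v, hv⟩ := u1.exists_left_inv
    refine ⟨v * b.repr x 1, b.ext_elem (Fin.forall_fin_two.2 ⟨?_, ?_⟩)⟩ <;>
      simp only [map_smul, Finsupp.smul_apply, smul_eq_mul]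
    · linear_combination -v * e - b.repr x 0 * hv
    · linear_combination -b.repr x 1 * hv
  obtain ⟨v, hv⟩ := (PadicInt.norm_lt_one_iff_dvd _).1 (PadicInt.not_isUnit_iff.1 u0)
  obtain ⟨w, hw⟩ := (PadicInt.norm_lt_one_iff_dvd _).1 (PadicInt.not_isUnit_iff.1 u1)
  refine absurd (TM.cp_eq_zero_iff.2 ⟨b.equivFun.symm ![v, w], b.ext_elem
    (Fin.forall_fin_two.2 ⟨?_, ?_⟩)⟩) h.2 <;> simp [hv, hw]

theorem ex_gp (hc : P022.St.IsConj c) : ∃ g, Gp A B c g := by
  obtain ⟨x, hx⟩ : ∃ x : Tm A B, rho A B c x + x ≠ 0 := by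
    by_contra! n
    refine conj_ne (hq hD) hc (-1) (.inr rfl) ?_
    rw [mt_eq, show rho A B c = (-1 : ℤ_[pp]) • 1 from LinearMap.ext fun x => by
      simpa using eq_neg_of_add_eq_zero_left (n x), map_smul, map_one]
  have e : rho A B c (rho A B c x + x) = rho A B c x + x := by
    rw [map_add, ← Module.End.mul_apply, ← map_mul, conj_sq (hq hD) hc, map_one, add_comm]
    rfl
  generalize rho A B c x + x = y at hx e
  obtain ⟨k, hk⟩ : ∃ k, TM.cp k y ≠ 0 := by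
    by_contra! n
    exact hx (TM.ext fun r => (n r).trans (map_zero _).symm)
  induction k generalizing y with
  | zero => exact absurd (TM.cp_zero y) hk
  | succ k ih =>
    by_cases h1 : TM.cp 1 y = 0
    · obtain ⟨z, rfl⟩ := TM.cp_eq_zero_iff.1 h1
      refine ih z (fun a => hx (by rw [a, smul_zero])) (sub_eq_zero.1 (TM.eq_zero_of_pow_smul (r := 1)
        (by rw [smul_sub, ← map_smul, e, sub_self]))) fun a => hk ?_
      rw [TM.cp_pow_smul, TM.cp_add, a]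
    · exact ⟨y, e, h1⟩

theorem Gp.two (hc : P022.St.IsConj c) (h : Gp A B c g) {Q : Pt A B} (hQ : Q ∈ Ac A B c) :
    2 • Q ∈ (hm g).range := by
  obtain ⟨⟨k, hk⟩, e⟩ := mem_Ac.1 hQ
  obtain ⟨x, rfl⟩ := TM.exists_cp (hdiv (hq hD)) hk
  obtain ⟨a, ha⟩ := h.line hD hc (x := rho A B c x + x) (by
    rw [map_add, ← Module.End.mul_apply, ← map_mul, conj_sq (hq hD) hc, map_one, add_comm]
    rfl)
  exact mem_hm.2 ⟨k, a, by rw [← ha, map_add, cp_rho, e, two_nsmul]⟩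

/-- **the components are not seen** -/
theorem Gp.p0 (hc : P022.St.IsConj c) (h : Gp A B c g) : (hm g).range = Ac A B c :=
  le_antisymm h.le fun Q hQ => (QuotientAddGroup.eq_zero_iff Q).1 (hQ.1.elim fun k a =>
    half (k := k) (by rw [← QuotientAddGroup.mk_nsmul, a, QuotientAddGroup.mk_zero])
      (by rw [← QuotientAddGroup.mk_nsmul, QuotientAddGroup.eq_zero_iff]; exact h.two hD hc hQ))

/-- **the sequence** `0 → A^G → A^c → d A^c → 0` -/
theorem Gp.seq (hc : P022.St.IsConj c) (h : Gp A B c g) :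
    ((dd A B).comp (hm g)).range = (Ac A B c).map (dd A B) ∧
      Nat.card ((dd A B).comp (hm g)).ker = Nat.card (Ag A B) := by
  rw [AddMonoidHom.range_comp, h.p0 hD hc, ← AddMonoidHom.comap_ker,
    ← AddSubgroup.card_map_of_injective (hm_inj h.2), AddSubgroup.map_comap_eq, h.p0 hD hc,
    show Ac A B c ⊓ (dd A B).ker = Ag A B from AddSubgroup.ext fun Q =>
    ⟨fun a => mem_Ag.2 ⟨a.1.1, ker_dd.1 a.2⟩, fun a => ⟨Ag_le c a, ker_dd.2 (mem_Ag.1 a).2⟩⟩]
  exact ⟨rfl, rfl⟩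

end Vale.Agent.P014U.Bt
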