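import Vale.Agent.P014U.Base
import Vale.Agent.P014T.Bt.Defs

/-! # P014U, block B: framed cocycles with values in the points of order a power of `pp` -/

set_option autoImplicit false
set_option linter.all false

open NumberField
open scoped Classical

noncomputable section

namespace Vale.Agent.P014U.Bt

variable [Pp]

export Vale.Agent.P014T.Bt (dd Km dd_apply)

open Vale.Agent.P022 (Qb GQ)
open Vale.Agent.P022K.G2 (In)
open Vale.Agent.P022D.W (dec)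
open P004M.TE (Pt ga)

variable (A B : ℤ)

/-- the points of order a power of `pp` -/
def T2 : AddSubgroup (Pt A B) where
  carrier := {Q | ∃ k : ℕ, pp ^ k • Q = 0}
  zero_mem' := ⟨0, nsmul_zero _⟩
  add_mem' := fun ⟨k, a⟩ ⟨j, b⟩ => ⟨k + j, by
    rw [nsmul_add, pow_add, mul_nsmul, mul_nsmul', a, b, nsmul_zero, nsmul_zero, add_zero]⟩
  neg_mem' := fun ⟨k, a⟩ => ⟨k, by rw [neg_nsmul, a, neg_zero]⟩

/-- locally constant cocycles of `D` which are killed by a power of `pp` -/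
def Zl (D : Subgroup GQ) : AddSubgroup (GQ → Pt A B) where
  carrier := {x | IsLocallyConstant (fun g : D => x g) ∧
    (∀ g ∈ D, ∀ h ∈ D, x (g * h) = x g + ga g (x h)) ∧ ∃ k : ℕ, ∀ g ∈ D, pp ^ k • x g = 0}
  zero_mem' := ⟨IsLocallyConstant.const 0, fun _ _ _ _ => by simp, 0, fun _ _ => nsmul_zero _⟩
  add_mem' := fun ⟨a1, a2, k, a⟩ ⟨b1, b2, j, b⟩ => ⟨a1.add b1, fun g hg h hh => by
    simp only [Pi.add_apply, a2 g hg h hh, b2 g hg h hh, map_add]; abel, k + j, fun g hg => by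
    rw [Pi.add_apply, nsmul_add, pow_add, mul_nsmul, mul_nsmul', a g hg, b g hg, nsmul_zero,
      nsmul_zero, add_zero]⟩
  neg_mem' := fun ⟨a1, a2, k, a⟩ => ⟨a1.neg, fun g hg h hh => by
    simp only [Pi.neg_apply, a2 g hg h hh, map_neg]; abel, k, fun g hg => by
    rw [Pi.neg_apply, neg_nsmul, a g hg, neg_zero]⟩

/-- **the framed cocycles**: unramified outside `S`, zero at `c` -/
def Z0 (S : Finset ℕ) (c : GQ) : AddSubgroup (GQ → Pt A B) where
  carrier := {x | IsLocallyConstant x ∧ (∀ g h, x (g * h) = x g + ga g (x h)) ∧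
    (∃ k : ℕ, ∀ g, pp ^ k • x g = 0) ∧ (∀ g ∈ In S, x g = 0) ∧ x c = 0}
  zero_mem' := ⟨IsLocallyConstant.const 0, fun _ _ => by simp, ⟨0, fun _ => nsmul_zero _⟩,
    fun _ _ => rfl, rfl⟩
  add_mem' := fun ⟨a1, a2, ⟨k, a⟩, a4, a5⟩ ⟨b1, b2, ⟨j, b⟩, b4, b5⟩ => ⟨a1.add b1, fun g h => by
    simp only [Pi.add_apply, a2, b2, map_add]; abel, ⟨k + j, fun g => by
    rw [Pi.add_apply, nsmul_add, pow_add, mul_nsmul, mul_nsmul', a, b, nsmul_zero,
      nsmul_zero, add_zero]⟩, fun g hg => by rw [Pi.add_apply, a4 g hg, b4 g hg, add_zero],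
    by rw [Pi.add_apply, a5, b5, add_zero]⟩
  neg_mem' := fun ⟨a1, a2, ⟨k, a⟩, a4, a5⟩ => ⟨a1.neg, fun g h => by
    simp only [Pi.neg_apply, a2, map_neg]; abel, ⟨k, fun g => by
    rw [Pi.neg_apply, neg_nsmul, a, neg_zero]⟩, fun g hg => by rw [Pi.neg_apply, a4 g hg, neg_zero],
    by rw [Pi.neg_apply, a5, neg_zero]⟩

/-- the framed Selmer group -/
def Zs (S : Finset ℕ) (c : GQ) (P : ℕ → Ideal (𝓞 Qb)) : AddSubgroup (GQ → Pt A B) :=
  Z0 A B S c ⊓ ⨅ p ∈ S, Km A B (dec (P p))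

/-- the part which comes from rational points -/
def Zk (S : Finset ℕ) (c : GQ) : AddSubgroup (GQ → Pt A B) := Z0 A B S c ⊓ Km A B ⊤

variable {A B}

theorem mem_Zs {S : Finset ℕ} {c : GQ} {P : ℕ → Ideal (𝓞 Qb)} {x : GQ → Pt A B} :
    x ∈ Zs A B S c P ↔ x ∈ Z0 A B S c ∧ ∀ p ∈ S, x ∈ Km A B (dec (P p)) := by
  simp [Zs, AddSubgroup.mem_iInf]

theorem Z0_le (S : Finset ℕ) (c : GQ) (D : Subgroup GQ) : Z0 A B S c ≤ Zl A B D :=
  fun _ h => ⟨h.1.comp_continuous continuous_subtype_val, fun g _ j _ => h.2.1 g j,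
    h.2.2.1.imp fun _ a g _ => a g⟩

theorem Zk_le (S : Finset ℕ) (c : GQ) (P : ℕ → Ideal (𝓞 Qb)) : Zk A B S c ≤ Zs A B S c P :=
  fun _ h => mem_Zs.2 ⟨h.1, fun _ _ => h.2.imp fun _ a g _ => a g trivial⟩

end Vale.Agent.P014U.Bt
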