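import Vale.Agent.P014U.Bt.Rk
import Vale.Agent.P014U.Cp.Hv
import Vale.Agent.P014U.Cp.Nn
import Vale.Agent.P014U.Lc.Fx
import Vale.Agent.P014U.Pq.El
import Vale.Agent.P014U.Sh.Br
import Vale.Agent.P014T.Bt.Top

/-! # P014U, block B: the exact count in rank zero and in rank one -/

set_option autoImplicit false
set_option linter.all false

open NumberField
open scoped Classical

noncomputable section

namespace Vale.Agent.P014U.Bt

variable [Pp]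

export Vale.Agent.P014T.Bt (sub_ker sub_rng)

open Vale.Agent.P022 (Qb GQ IsConj)
open Vale.Agent.P022D.W (dec dec_gen)
open Vale.Agent.P022E.GW (Ov)
open X4M.TE hiding Qb GQ
open P027M.K
open X4S.Ga (K O)
open P014 (shaPrimary torsionOrder)
open P014T.Wm (Fx)
open Ba (Dv u Tk Tp sp mem_Tk Dat Zf)
open P014T.Sm (Md up)
open Cp.Bb (Lr Yl dg)
open P014T (IsBasisModTorsion)
open P014T.Lc (Wq tm np)
open Lc (Lk)
open Ah (Ind)

theorem pow_of {N i : ℕ} (h : N ≠ 0) (l : N ≤ i) {d : Dv} (e : N • d = 0) : pp ^ i • d = 0 := by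
  obtain ⟨a, m, om, rfl⟩ := Nat.exists_eq_pow_mul_and_not_dvd h pp one_lt.ne'
  refine Ba.pow_up (((Nat.lt_pow_self one_lt).le.trans (Nat.le_mul_of_pos_right _
    (Nat.pos_of_ne_zero (right_ne_zero_of_mul h)))).trans l) (Ba.odd_inj (n := m)
    (Nat.isCoprime_iff_coprime.2 (pp_prime.coprime_iff_not_dvd.2 om).symm) (Ba.dv_tor _) ?_)
  rwa [natCast_zsmul, ← mul_smul, mul_comm]

variable (A B : ℤ)

/-- large sets of primes -/
structure Lb (S : Finset ℕ) : Prop where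
  lr : Lr A B S
  ax : ∃ l ∈ S, l ≠ pp ∧ ∃ Q, Ov l Q ∧ ∀ g ∈ dec Q, ∀ x : Pt A B, pp • x = 0 → ga g x = x

/-- the number of framed cocycles of level `j` -/
def cz (S : Finset ℕ) (c : GQ) (j : ℕ) : ℕ := Nat.card (Tk (Z0 A B S c) j)

variable {A B}

/-- **the formula** at level `j` for the class `x`; `l` is the size of its dual exponential -/
def Fm (W : WeierstrassCurve ℤ) (v : ℚ) (S : Finset ℕ) (c : GQ) (g : Tm A B) (j : ℕ)
    (x : GQ → Pt A B) (l : ℝ) : Prop :=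
  ((pp : ℝ) ^ 4) ^ j * Nat.card (shaPrimary (Wq W) pp) *
      pp ^ padicValNat pp (∏ p ∈ S, tm (Wq W) p * np W p) * l =
    pp * ‖(v : K)‖ * sp (dd A B (TM.cp j g)) x * cz A B S c j *
      (pp ^ 2) ^ padicValNat pp (torsionOrder (Wq W))

theorem ex_lb (hD : 4 * A ^ 3 + 27 * B ^ 2 ≠ 0) : ∃ S₀ : Finset ℕ, (∀ l ∈ S₀, l.Prime) ∧
    ∀ S : Finset ℕ, S₀ ⊆ S → (∀ l ∈ S, l.Prime) → Lb A B S := by
  obtain ⟨S, p, q⟩ := Cp.Bb.ex_lr hD
  have L := q S subset_rfl p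
  have : Finite (P025H816.tors (Pt A B) pp) := Nat.finite_of_card_ne_zero
    ((card_mul two_ne_zero (hq hD) pp_ne).trans_ne (pow_ne_zero 2 pp_ne))
  let U : Subgroup GQ := ⨅ x : P025H816.tors (Pt A B) pp,
    { carrier := {g | ga g x.1 = x}, one_mem' := ga_one _
      mul_mem' := fun {a b} (i : _ = _) (j : _ = _) => show _ = _ by rw [ga_mul, j, i]
      inv_mem' := fun {g} (a : _ = _) => show _ = _ by
        rw [← a, ← ga_mul, inv_mul_cancel, ga_one, a] }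
  have u : ∀ {g}, g ∈ U ↔ ∀ x : Pt A B, pp • x = 0 → ga g x = x := Subgroup.mem_iInf.trans Subtype.forall
  have o : IsOpen (U : Set GQ) := by
    rw [Subgroup.coe_iInf]
    exact isOpen_iInter_of_finite fun x =>
      isOpen_iff_mem_nhds.2 fun g a => (ev_ga g x.1).mono fun _ e => e.trans a
  obtain ⟨l, φ, hl, m, ⟨Q, p1, p2, f⟩, i⟩ := P022K.Cheb.exists_fr o (one_mem _) S
  refine ⟨insert l S, Finset.forall_mem_insert .. |>.2 ⟨hl, p⟩, fun S' a b =>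
    ⟨q S' ((Finset.subset_insert l S).trans a) b, l, a (Finset.mem_insert_self ..),
      fun e => m (e ▸ L.two), Q, ⟨hl, p1, p2⟩, fun g hg => ?_⟩⟩
  obtain ⟨k, s, w, hs, hw, rfl⟩ := dec_gen hl p1 p2 f hg _ o
  exact u.1 (mul_mem (mul_mem hw (pow_mem i k)) (u.2 fun x t =>
    L.unr ⟨l, m, Q, ⟨hl, p1, p2⟩, hs⟩ (k := 1) (by rwa [pow_one])))

variable {S : Finset ℕ} {c : GQ} {g : Tm A B} {P : ℕ → Ideal (𝓞 Qb)}

theorem cz_eq (j : ℕ) : cz A B S c j = Nat.card (Pq.Zj (fun g => ga g : GQ → Pt A B →+ _) S c j) :=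
  Nat.card_congr ⟨fun z => ⟨z.1.1, z.1.2, congrArg Subtype.val z.2⟩,
    fun z => ⟨⟨z.1, z.2.1⟩, Subtype.ext z.2.2⟩, fun _ => rfl, fun _ => rfl⟩

theorem Lb.low (L : Lb A B S) (hD : 4 * A ^ 3 + 27 * B ^ 2 ≠ 0) (hc : IsConj c) (j : ℕ) :
    pp ^ 2 * cz A B S c j ≤ cz A B S c (j + 1) := by
  have d := Pq.dm_ga (hq hD)
  rw [cz_eq, cz_eq]
  exact Pq.low d (Pq.ac_ga (hq hD) fun l p n b => n (L.lr.bad l p b)) (Pq.bs_of (hq hD) L.lr.two
    L.lr.pr hc (L.ax.imp fun l a => ⟨a.1, a.2.1, a.2.2.imp fun Q b => ⟨b.1, fun g m =>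
      Matrix.ext_iff_mulVec.2 fun v => d.inj (by
        rw [d.eq, Matrix.one_mulVec]; exact b.2 g m _ (Pq.two_io _ v))⟩⟩)) j

theorem card_dg (L : Lr A B S) :
    Nat.card ↥((dg A B S P).range ⊓ Tp (Yl A B S P)) = Nat.card (Ag A B) := by
  have i := Cp.Bb.dg_inj (P := P) L
  let f : Ag A B → ↥((dg A B S P).range ⊓ Tp (Yl A B S P)) := fun y => ⟨dg A B S P ⟨y.1, y.2.2⟩,
    ⟨_, rfl⟩, y.2.1.imp fun k a => by
      rw [← map_nsmul, show pp ^ k • (⟨y.1, y.2.2⟩ : Fx A B ⊤) = 0 from Subtype.ext a, map_zero]⟩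
  refine (Nat.card_eq_of_bijective f ⟨fun x y e => Subtype.ext (congrArg Subtype.val (i
    (congrArg Subtype.val e :)) :), ?_⟩).symm
  rintro ⟨_, ⟨y, rfl⟩, k, a⟩
  exact ⟨⟨y.1, ⟨k, congrArg Subtype.val (i ((map_nsmul _ _ _).trans (a.trans (map_zero _).symm)))⟩,
    y.2⟩, rfl⟩

theorem zs_le (S : Finset ℕ) (c : GQ) (P : ℕ → Ideal (𝓞 Qb)) : Zs A B S c P ≤ Z0 A B S c :=
  inf_le_left

theorem zf_eq (hD : 4 * (A : ℚ) ^ 3 + 27 * (B : ℚ) ^ 2 ≠ 0) (o : ∀ p ∈ S, Ov p (P p)) :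
    Zf (Cp.PR hD o S c) = (Zs A B S c P).addSubgroupOf _ :=
  AddSubgroup.ext fun z => Ba.mem_Zf.trans (Cp.PR_zs hD o c z)

theorem cnt1 (hS : ∀ l : ℕ, l.Prime → (l : ℤ) ∣ 2 * pp * (4 * A ^ 3 + 27 * B ^ 2) → l ∈ S)
    (G : Gp A B c g) (hD : 4 * A ^ 3 + 27 * B ^ 2 ≠ 0) (hc : IsConj c) {e : Pt A B}
    (em : e ∈ Fx A B ⊤) (en : ¬ IsOfFinAddOrder e)
    (gn : ∀ Q ∈ Fx A B ⊤, ∃ n : ℤ, IsOfFinAddOrder (Q - n • e)) {τ j w : ℕ}
    (ag : Nat.card (Ag A B) = pp ^ τ) (x : Dv →+ Z0 A B S c) (xm : ∀ s, (x s).1 ∈ Zk A B S c)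
    {Q : Pt A B} {m : ℤ} (q : (x (u j)).1 = dd A B Q) (t : IsOfFinAddOrder (pp ^ j • Q - m • e))
    (hw : ‖(m : K)‖ * pp ^ w = 1) (wj : w + (τ + 1) ≤ j) :
    Finite ((gm hS G).coprod x).ker ∧ ∃ I, (pp ^ 2) ^ j =
      sp (dd A B (TM.cp j g)) (x (u j)).1 * (pp ^ τ * pp ^ w * I) ∧
      ((gm hS G).coprod x).range.index = I * (Zk A B S c).relIndex (Z0 A B S c) := by
  obtain ⟨δ, -, dk, dv⟩ := ex_dl hS hD (conj_sq (hq hD) hc) em en gn
  let x' : Dv →+ Zk A B S c := ((Z0 A B S c).subtype.comp x).codRestrict _ xm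
  let γ : Dv →+ Zk A B S c :=
    ((dd A B).comp (hm g)).codRestrict _ fun s => ac_le hS (gm_mem hS G s)
  have ek := Ba.ker_eq (δ.comp x') (j := j) hw (by omega) ((dv _ Q j m q t).trans (by
    rw [u, ← QuotientAddGroup.mk_zsmul, zsmul_eq_mul, div_eq_mul_inv]))
  have : Finite (δ.comp x').ker := ek ▸ Ba.fin_tk w
  have gl : γ.range ≤ δ.ker := dk ▸ fun _ ⟨s, a⟩ => a ▸ gm_mem hS G s
  have sn := snk δ γ x' gl (Ba.onto_dv _)
  have eq : (Zk A B S c).subtype.comp (γ.coprod x') =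
      (Z0 A B S c).subtype.comp ((gm hS G).coprod x) := AddMonoidHom.ext fun _ => rfl
  have kk : (γ.coprod x').ker = ((gm hS G).coprod x).ker := by rw [sub_ker, eq, ← sub_ker]
  have hk : ((gm hS G).coprod x).ker ≤ Tk (Dv × Dv) j := fun p a => by
    have a0 : γ p.1 + x' p.2 = 0 := kk.ge a
    have a1 : p.2 ∈ Tk Dv w := ek ▸ (show δ (x' p.2) = 0 by
      rw [← neg_eq_of_add_eq_zero_right a0, map_neg, show δ (γ _) = 0 from gl ⟨_, rfl⟩, neg_zero])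
    have a2 := gm_le hS G ag (show gm hS G (pp ^ w • p.1) = 0 by
      rw [map_nsmul, eq_neg_of_add_eq_zero_left (show gm hS G p.1 + x p.2 = 0 from a), neg_nsmul,
        ← map_nsmul, mem_Tk.1 a1, map_zero, neg_zero])
    rw [mem_Tk, smul_smul, ← pow_add] at a2
    exact Prod.ext (Ba.pow_up (by omega) a2) (Ba.pow_up (by omega) a1)
  have s1 := Ba.ker_sp _ _ hk
  have sq := G.seq hD hc
  have rl : ((Z0 A B S c).subtype.comp ((gm hS G).coprod x)).range ≤ Zk A B S c :=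
    eq ▸ fun _ ⟨p, a⟩ => a ▸ (γ.coprod x' p).2
  rw [kk, ek, Ba.card_tk, dk, sub_rng γ, AddSubgroup.relIndex_addSubgroupOf (ac_le hS),
    sub_rng (γ.coprod x'), eq, sub_ker γ,
    show (Zk A B S c).subtype.comp γ = (dd A B).comp (hm g) from AddMonoidHom.ext fun _ => rfl] at sn
  rw [sq.1, sq.2, AddSubgroup.relIndex_self, mul_one] at sn
  refine ⟨Ba.fin_ker hk, _, ?_, (congrArg _ (sub_rng _)).trans
    (AddSubgroup.relIndex_mul_relIndex _ _ _ rl (inf_le_left : Zk A B S c ≤ _)).symm⟩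
  rw [← s1, sp_coe, gm_u, ← ag, AddSubgroup.relIndex, sn, mul_comm]

variable {W : WeierstrassCurve ℤ} (hΔ : W.Δ ≠ 0) {v r s t : ℚ} (h : Md (Wq W) A B v r s t)
  (hD : 4 * (A : ℚ) ^ 3 + 27 * (B : ℚ) ^ 2 ≠ 0) {ι : Qb →+* ℂ_[pp]} (hι : Ind ι (P pp))
  {lg : Fx A B (dec (P pp)) →+ K} (k : Lk ι lg) (hc : IsConj c)
include hΔ h hι k hc

/-- the data of the abstract count -/
theorem dat (L : Lr A B S) (o : ∀ p ∈ S, Ov p (P p)) {i : ℕ}
    (ck : cz A B S c (i + 1) ≤ pp ^ 2 * cz A B S c i) : ∃ y : Fx A B (dec (P pp)),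
    Dat (Cp.PR hD o S c) (dg A B S P).range (lg.comp (Pi.evalAddMonoidHom _ (⟨pp, L.two⟩ : S)))
      (Pi.single ⟨pp, L.two⟩ y) ∧ (∀ x, ‖lg x‖ ≤ ‖lg y‖) ∧
    (Nat.card (Tp (Yl A B S P)) : ℝ) * (‖(v : K) * lg y‖ * pp) =
      pp ^ padicValNat pp (∏ p ∈ S, tm (Wq W) p * np W p) := by
  obtain ⟨y, a1, a2, a3, a4, a5, a6⟩ := Lc.all hΔ h o L.two hι k
  have rc := Cp.PR_dg hD o c (fun l m => L.bad l (Nat.prime_of_mem_primeFactors m)
    (Int.natCast_dvd.2 (Nat.dvd_of_mem_primeFactors m))) hc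
  have e : Pi.single ⟨pp, L.two⟩ (y ⟨pp, L.two⟩) = y := funext fun w => by
    by_cases b : w = ⟨pp, L.two⟩
    · rw [b, Pi.single_eq_same]
    · rw [Pi.single_eq_of_ne b, a1 w b]
  refine ⟨y ⟨pp, L.two⟩, ?_, a4, a6⟩
  rw [e]
  exact ⟨Cp.Bb.z0_tor, a2, fun _ ⟨x, b⟩ z => b ▸ rc x z, fun _ => Cp.Bb.hb hD L hc o
    (fun l => Cp.ivP (o l l.2)) _ (Cp.PR_apply hD o S c) rc ck, fun _ => Cp.Bb.hc L o, a3,
    fun x => a4 _, a5⟩

/-- the index of the Selmer group in rank one -/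
theorem idx1 (L : Lr A B S) (o : ∀ p ∈ S, Ov p (P p)) {i : ℕ}
    (ck : cz A B S c (i + 1) ≤ pp ^ 2 * cz A B S c i) {e : Fx A B (dec (P pp))} (em : e.1 ∈ Fx A B ⊤)
    (l0 : lg e ≠ 0) (gn : ∀ Q ∈ Fx A B ⊤, ∃ n : ℤ, IsOfFinAddOrder (Q - n • e.1)) :
    ((Zs A B S c P).relIndex (Z0 A B S c) * Nat.card (Ag A B) : ℝ) * (‖(v : K)‖ * ‖lg e‖ * pp) =
      pp ^ padicValNat pp (∏ p ∈ S, tm (Wq W) p * np W p) := by
  have := P014T.Lc.ell hΔ
  obtain ⟨y, d, bd, cd⟩ := dat hΔ h (hq h.hD) hι k hc L o ck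
  obtain ⟨m, hm⟩ := ex_m l0 (bd _)
  have s3 := d.one (r0 := dg A B S P ⟨_, em⟩) ⟨_, rfl⟩ (by
    rintro _ ⟨r, rfl⟩
    obtain ⟨a, b⟩ := gn r r.2
    have := (k.ker hΔ h hι (dg A B S P r ⟨pp, L.two⟩ - a • e)).2
      (Subtype.val_injective.isOfFinAddOrder_iff (f := (Fx A B (dec (P pp))).subtype).1 b)
    rw [map_sub, map_zsmul, sub_eq_zero] at this
    refine (congrArg norm this).trans_le ?_
    rw [zsmul_eq_mul, norm_mul]
    exact mul_le_of_le_one_left (norm_nonneg _) (Padic.norm_int_le_one a)) (m := m)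
    (hm.trans (by simp))
  rw [zf_eq, card_dg L] at s3
  rw [← cd, norm_mul, ← hm, ← Nat.cast_mul, AddSubgroup.relIndex, s3]
  push_cast
  ring

variable (G : Gp A B c g)
include G

/-- **rank zero** -/
theorem top0 (o2 : Ov pp (P pp)) : ∃ j₀ : ℕ, ∀ S, Lb A B S → (∀ p ∈ S, Ov p (P p)) →
    ∀ (n b N j : ℕ) (z : Z0 A B S c) (l : K), pp ^ n • z = 0 → cz A B S c n ≤ (pp ^ 2) ^ n * pp ^ b →
    N ≠ 0 → (∀ y, Cp.pr (Ki.pr hD) (Cp.ivP o2) (N • y) ⟨z.1, Z0_le S c _ z.2⟩ =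
      ((lg (N • y) * l / pp ^ n : K) : Dv)) → b ≤ j → j + b + N ≤ n → pp ^ j₀ ≤ ‖l‖ * pp ^ j →
    (∀ Q : (Wq W).toAffine.Point, IsOfFinAddOrder Q) ∧ Finite (shaPrimary (Wq W) pp) ∧
      Fm W v S c g j (pp ^ (n - j) • z.1) ‖l‖ := by
  have := P014T.Lc.ell hΔ
  have hZ := h.hD
  have pr0 := Ba.pos_r
  have ag := card_ag h
  obtain ⟨lg', y1, k', -, n1, -⟩ := Lc.two hΔ h hι
  obtain rfl := k.uniq k'
  have p1 := norm_pos_iff.2 n1
  obtain ⟨j₀, hj⟩ := pow_unbounded_of_one_lt (pp ^ padicValNat pp (torsionOrder (Wq W)) / ‖lg y1‖)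
    pr1
  refine ⟨j₀, fun S L o n b N j z l hz cb N0 hp bj le hl => ?_⟩
  have := Cp.Bb.fin1 hZ L.lr hc o
  obtain ⟨i, ib, D, D0, hd⟩ := stab (L.low hZ hc) cb (by omega)
  obtain ⟨y, d, bd, cd⟩ := dat hΔ h hD hι k hc L.lr o (i := i)
    ((hd _ i.le_succ).trans_le (by rw [cz, hd i le_rfl, pow_succ', mul_assoc]))
  have e1 : pp ^ i • pp ^ (n - j - i) • z = pp ^ (n - j) • z := by
    rw [smul_smul, ← pow_add, show i + (n - j - i) = n - j by omega]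
  have e2 : pp ^ j • pp ^ (n - j) • z = 0 := by
    rw [smul_smul, ← pow_add, show j + (n - j) = n by omega, hz]
  have e3 : Cp.PR hD o S c (Pi.single ⟨pp, L.lr.two⟩ y) (pp ^ (n - j) • z) =
      ((lg y * l / pp ^ j : K) : Dv) := by
    have := pow_of N0 (i := n - j) (by omega) (d := Cp.PR hD o S c (Pi.single ⟨pp, L.lr.two⟩ y) z -
      ((lg y * l / pp ^ n : K) : Dv)) (by
        rw [nsmul_sub, Cp.PR_single, ← AddMonoidHom.nsmul_apply, ← map_nsmul, sub_eq_zero]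
        refine (hp y).trans ?_
        rw [← QuotientAddGroup.mk_nsmul, map_nsmul, smul_mul_assoc, smul_div_assoc])
    rw [nsmul_sub, sub_eq_zero, ← map_nsmul, ← QuotientAddGroup.mk_nsmul] at this
    rw [this, show n = n - j + j by omega, Nat.add_sub_cancel, pow_add, nsmul_eq_mul]
    refine congrArg _ ?_
    have := pk0
    push_cast
    field_simp
  have l0 : 0 < ‖l‖ := pos_of_mul_pos_left (lt_of_lt_of_le (by positivity) hl) (by positivity)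
  have y0 : 0 < ‖lg y‖ := p1.trans_le (bd y1)
  obtain ⟨e, he⟩ := ex_m (a := lg y * l) (b := 1) (norm_pos_iff.1 (by rw [norm_mul]; positivity)) (by
    have := (Ba.mk_mem (lg y * l) j j).1 (by rw [← e3, mem_Tk, ← map_nsmul, e2, map_zero])
    rw [norm_one]
    exact le_of_mul_le_mul_right (by rwa [one_mul]) (pow_pos Ba.pos_r j))
  rw [norm_one] at he
  have le' : ∀ x, gm L.lr.bad G x ∈ Zf (Cp.PR hD o S c) := fun x =>
    zf_eq hD o ▸ Zk_le S c P (ac_le L.lr.bad (gm_mem L.lr.bad G x))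
  obtain ⟨f1, f2, f3⟩ := d.lev0 (gm L.lr.bad G) le' (gm_le L.lr.bad G ag) D0 (L.low hZ hc) (hd i le_rfl)
    (hd _ i.le_succ) (z := pp ^ (n - j - i) • z) (j := j) (e1 ▸ e2) (e1 ▸ e3) he (by
      rw [← pow_lt_pow_iff_right₀ pr1, pow_add]
      rw [div_lt_iff₀ p1] at hj
      rw [norm_mul] at he
      calc _ < pp ^ e * (‖l‖ * pp ^ j * ‖lg y‖) := by gcongr; exact hj.trans_le (by gcongr; exact bd y1)
        _ = _ := by linear_combination (pp : ℝ) ^ j * he)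
  have tr : ∀ Q ∈ Fx A B ⊤, IsOfFinAddOrder Q := fun Q m => by
    have := (k.ker hΔ h hι (dg A B S P ⟨Q, m⟩ ⟨pp, L.lr.two⟩)).1 (by_contra fun a => by
      obtain ⟨w, hw⟩ := ex_m a (bd _)
      obtain ⟨t, ht, x, e⟩ := f3 _ ⟨⟨Q, m⟩, rfl⟩ (w + 1)
      have := congrArg (lg.comp (Pi.evalAddMonoidHom _ (⟨pp, L.lr.two⟩ : S))) e
      rw [map_add, Ba.lg_tor ht, zero_add, map_nsmul, nsmul_eq_mul, Nat.cast_pow] at this
      have b := bd (x ⟨pp, L.lr.two⟩)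
      rw [show lg (dg A B S P ⟨Q, m⟩ ⟨pp, L.lr.two⟩) = (pp : K) ^ (w + 1) * lg (x ⟨pp, L.lr.two⟩) from this,
        norm_mul, Ba.norm_two_pow] at hw
      have : ‖lg (x ⟨pp, L.lr.two⟩)‖ = pp * ‖lg y‖ := by rw [← hw]; field_simp; ring
      nlinarith [pr1])
    exact (Fx A B (dec (P pp))).subtype.isOfFinAddOrder this
  have sq := G.seq hZ hc
  rw [zf_eq, gm_range, AddSubgroup.relIndex_addSubgroupOf (zs_le S c P),
    ← AddSubgroup.relIndex_mul_relIndex ((dd A B).comp (hm g)).range (Zk A B S c) _ (fun _ ⟨x, a⟩ =>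
      a ▸ ac_le L.lr.bad (gm_mem L.lr.bad G x)) (Zk_le S c P), ← Sh.card_sha h L.lr.bad hc o,
    zk_zero L.lr.bad tr] at f1 f2
  refine ⟨fun Q => (P014T.Sm.upF_inj h).isOfFinAddOrder_iff.1 (tr _ fun g _ => P014T.Sm.ga_up h g Q),
    Nat.finite_of_card_ne_zero (right_ne_zero_of_mul f2), ?_⟩
  rw [card_dg L.lr, e1, sp_coe, gm_u, gm_ker, sq.2, sq.1, AddSubgroup.relIndex_self, ag] at f1
  have f1' := congrArg (Nat.cast : ℕ → ℝ) f1
  rw [Fm, cz, hd j (ib.trans bj), ← cd, norm_mul, show (pp : ℝ) ^ 4 = pp ^ 2 * pp ^ 2 by ring, mul_pow,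
    pow_right_comm _ 2 (padicValNat _ _)]
  rw [norm_mul] at he
  push_cast at f1' ⊢
  set q := (sp (dd A B (TM.cp j g)) (pp ^ (n - j) • z.1) : ℝ)
  set a := (pp : ℝ) ^ padicValNat pp (torsionOrder (Wq W))
  linear_combination ((pp : ℝ) ^ 2) ^ j * pp * ‖(v : K)‖ * (‖lg y‖ * ‖l‖ * f1' + q * D * a * a * he)

/-- **rank one** -/
theorem top1 (nt : ∃ Q : (Wq W).toAffine.Point, ¬ IsOfFinAddOrder Q) : ∃ j₀ : ℕ, ∀ S, Lb A B S →
    (∀ p ∈ S, Ov p (P p)) → ∀ n b : ℕ, cz A B S c n ≤ (pp ^ 2) ^ n * pp ^ b → b < n →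
    Module.finrank ℤ (Wq W).toAffine.Point = 1 ∧ Finite (shaPrimary (Wq W) pp) ∧
    ∀ e : Fin 1 → (Wq W).toAffine.Point, IsBasisModTorsion (Wq W) e → ∀ (j : ℕ) (z : Z0 A B S c),
      pp ^ n • z = 0 → b ≤ j → j + b ≤ n → ∃ (Q : Pt A B) (m : ℤ), pp ^ (n - j) • z.1 = dd A B Q ∧
        IsOfFinAddOrder (pp ^ j • Q - m • up h (e 0)) ∧ (pp ^ j₀ ≤ ‖(m : K)‖ * pp ^ j →
          Fm W v S c g j (pp ^ (n - j) • z.1)
            ‖(m : K) / lg ⟨up h (e 0), fun g _ => P014T.Sm.ga_up h g _⟩‖) := by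
  have := P014T.Lc.ell hΔ
  have hZ := h.hD
  have pr0 := Ba.pos_r
  have ag := card_ag h
  refine ⟨padicValNat pp (torsionOrder (Wq W)) + 1, fun S L o n b cb bn => ?_⟩
  have hS := L.lr.bad
  have := Cp.Bb.fin1 hZ L.lr hc o
  obtain ⟨i, ib, D, D0, hd⟩ := stab (L.low hZ hc) cb bn
  have ck : cz A B S c (i + 1) ≤ pp ^ 2 * cz A B S c i :=
    (hd _ i.le_succ).trans_le (by rw [cz, hd i le_rfl, pow_succ', mul_assoc])
  obtain ⟨r1, r2⟩ := rk hS G hZ (conj_sq (hq hZ) hc) ag D0 hd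
  rw [← (P014T.Sm.eqv h).toIntLinearEquiv.finrank_eq] at r1 r2
  have r0 : Module.finrank ℤ (Wq W).toAffine.Point ≠ 0 := fun a => by
    have := P014T.Cn.ex_basis (Wq W)
    rw [a] at this
    exact nt.elim fun Q b => b (P014T.Cn.basis_zero.1 this.choose_spec Q)
  have ix := r2 r0
  refine ⟨by omega, (Sh.fin_sha h hS hc o).2 fun a =>
    ix (AddSubgroup.relIndex_eq_zero_of_le_right (zs_le S c P) a), fun e he j z hz bj le => ?_⟩
  have fi : ∀ {Q}, IsOfFinAddOrder (up h Q) ↔ IsOfFinAddOrder Q :=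
    (P014T.Sm.upF_inj h).isOfFinAddOrder_iff
  have em : up h (e 0) ∈ Fx A B ⊤ := fun g _ => P014T.Sm.ga_up h g _
  have gn : ∀ Q ∈ Fx A B ⊤, ∃ n : ℤ, IsOfFinAddOrder (Q - n • up h (e 0)) := fun Q a => by
    obtain ⟨Q, rfl⟩ := P014T.Sm.ex_up h fun g => a g trivial
    exact ((P014T.Cn.basis_one.1 he).2 Q).imp fun m b => by rwa [← map_zsmul, ← map_sub, fi]
  have en := mt fi.1 (P014T.Cn.basis_one.1 he).1
  have e1 : pp ^ i • pp ^ (n - j - i) • z = pp ^ (n - j) • z := by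
    rw [smul_smul, ← pow_add, show i + (n - j - i) = n - j by omega]
  have e2 : pp ^ j • pp ^ (n - j) • z = 0 := by
    rw [smul_smul, ← pow_add, show j + (n - j) = n by omega, hz]
  obtain ⟨x, hx⟩ := Ba.ex_hom Cp.Bb.z0_tor (Ba.pow_div Cp.Bb.z0_tor (L.low hZ hc) ck) ⟨_, e1⟩ e2
  obtain ⟨Q, -, q⟩ := (zk_eq hS).le (div_le x ix (u j))
  have hx' : (x (u j)).1 = pp ^ (n - j) • z.1 := congrArg Subtype.val hx
  obtain ⟨m, t⟩ := gn (pp ^ j • Q) fun g _ => ker_dd.1 (by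
    rw [AddMonoidHom.mem_ker, map_nsmul, q.trans hx']; exact congrArg Subtype.val e2) g
  refine ⟨Q, m, (q.trans hx').symm, t, fun hl => ?_⟩
  have m0 : 0 < ‖(m : K)‖ := pos_of_mul_pos_left (lt_of_lt_of_le (by positivity) hl) (by positivity)
  obtain ⟨w, hw⟩ := ex_m (b := 1) (norm_pos_iff.1 m0) (by simpa using Padic.norm_int_le_one m)
  rw [norm_one] at hw
  obtain ⟨f, I, s1, s2⟩ := cnt1 hS G hZ hc em en gn ag x (div_le x ix) q.symm t hw (by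
    rw [← pow_le_pow_iff_right₀ pr1, pow_add]
    calc _ ≤ pp ^ w * (‖(m : K)‖ * pp ^ j) := by gcongr
      _ = _ := by linear_combination (pp : ℝ) ^ j * hw)
  have l0 : lg ⟨up h (e 0), fun g _ => P014T.Sm.ga_up h g _⟩ ≠ 0 := fun a =>
    en ((Fx A B (dec (P pp))).subtype.isOfFinAddOrder ((k.ker hΔ h hι _).1 a))
  have s3 := idx1 hΔ h hι k hc L.lr o ck em l0 gn
  rw [Ba.lev Cp.Bb.z0_tor _ D0 (hd i le_rfl) (hd _ i.le_succ),
    ← AddSubgroup.relIndex_mul_relIndex _ _ _ (Zk_le S c P) (zs_le S c P),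
    ← Sh.card_sha h hS hc o] at s2
  have s1' := congrArg (Nat.cast : ℕ → ℝ) s1
  rw [Fm, cz, hd j (ib.trans bj), s2, ← s3, ag, show (pp : ℝ) ^ 4 = pp ^ 2 * pp ^ 2 by ring, mul_pow,
    pow_right_comm _ 2 (padicValNat _ _), norm_div, mul_div_assoc',
    div_eq_iff (norm_ne_zero_iff.2 l0), ← hx']
  push_cast at s1' ⊢
  set q := (sp (dd A B (TM.cp j g)) (x (u j)).1 : ℝ)
  set a := (pp : ℝ) ^ padicValNat pp (torsionOrder (Wq W))
  linear_combination ((pp : ℝ) ^ 2) ^ j * pp * ‖(v : K)‖ * ‖lg ⟨up h (e 0), fun g _ => P014T.Sm.ga_up h g _⟩‖ * a *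
    Nat.card (shaPrimary (Wq W) pp) * (Zs A B S c P).relIndex (Z0 A B S c) *
    (‖(m : K)‖ * s1' + q * a * I * hw)

end Vale.Agent.P014U.Bt
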