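import Vale.Agent.P014U.Bt.Ac
import Vale.Agent.P014T.Bt.Kum

/-! # P014U, block B: the framed cocycles which come from rational points -/

set_option autoImplicit false
set_option linter.all false

open NumberField
open scoped Classical

noncomputable section

namespace Vale.Agent.P014U.Bt

variable [Pp]

export Vale.Agent.P014T.Bt (snk dd_fx)

open Vale.Agent.P022 (Qb GQ)
open Vale.Agent.P022K.G2 (In)
open X4M.TE hiding Qb GQ
open P027M.K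
open X4S.Ga (K O mem_O)
open P014T.Wm (Fx)
open Ba (Dv u)

variable (A B : ℤ)

/-- the points fixed by `c` of which a multiple by a power of `pp` is rational -/
def Mc (c : GQ) : AddSubgroup (Pt A B) where
  carrier := {Q | (∃ k : ℕ, pp ^ k • Q ∈ Fx A B ⊤) ∧ ga c Q = Q}
  zero_mem' := ⟨⟨0, by simp⟩, map_zero _⟩
  add_mem' := fun ⟨⟨k, a⟩, e⟩ ⟨⟨j, b⟩, f⟩ => ⟨⟨k + j, by
    rw [nsmul_add, pow_add, mul_nsmul, mul_nsmul']
    exact add_mem (nsmul_mem a _) (nsmul_mem b _)⟩, by rw [map_add, e, f]⟩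
  neg_mem' := fun ⟨⟨k, a⟩, e⟩ => ⟨⟨k, by rw [neg_nsmul]; exact neg_mem a⟩, by rw [map_neg, e]⟩

variable {A B} {S : Finset ℕ} {c : GQ} {g : Tm A B} {Q : Pt A B}

theorem Ac_le : Ac A B c ≤ Mc A B c :=
  fun _ h => ⟨(mem_Ac.1 h).1.elim fun k a => ⟨k, a ▸ zero_mem _⟩, h.2⟩

theorem Fx_le : Fx A B ⊤ ≤ Mc A B c := fun _ h => ⟨⟨0, by simpa using h⟩, h c trivial⟩

theorem mc_of (h : dd A B Q ∈ Z0 A B S c) : Q ∈ Mc A B c :=
  ⟨h.2.2.1.imp fun k a g _ => by rw [map_nsmul, ← sub_eq_zero, ← nsmul_sub]; exact a g,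
    sub_eq_zero.1 h.2.2.2.2⟩

/-- torsion points give nothing new -/
theorem dd_tor (h : Q ∈ Mc A B c) (t : IsOfFinAddOrder Q) :
    dd A B Q ∈ (Ac A B c).map (dd A B) := by
  obtain ⟨⟨k, a⟩, e⟩ := h
  obtain ⟨n, n0, hn⟩ := isOfFinAddOrder_iff_nsmul_eq_zero.1 t
  obtain ⟨j, m, om, rfl⟩ := Nat.exists_eq_pow_mul_and_not_dvd n0.ne' pp one_lt.ne'
  obtain ⟨v, w, b⟩ : IsCoprime (m : ℤ) (pp ^ k : ℕ) :=
    Nat.isCoprime_iff_coprime.2 ((pp_prime.coprime_iff_not_dvd.2 om).symm.pow_right k)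
  refine ⟨v • m • Q, mem_Ac.2 ⟨⟨j, by rw [smul_comm, ← mul_nsmul', hn, smul_zero]⟩,
    by rw [map_zsmul, map_nsmul, e]⟩, ?_⟩
  rw [← add_zero (dd A B _), ← dd_fx (zsmul_mem a w), ← map_add, ← natCast_zsmul, ← natCast_zsmul,
    ← mul_smul, ← mul_smul, ← add_zsmul, b, one_zsmul]

variable (hS : ∀ l : ℕ, l.Prime → (l : ℤ) ∣ 2 * pp * (4 * A ^ 3 + 27 * B ^ 2) → l ∈ S)
include hS

theorem dd_mem (h : Q ∈ Mc A B c) : dd A B Q ∈ Zk A B S c := by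
  obtain ⟨⟨k, a⟩, e⟩ := h
  have t : ∀ g, pp ^ k • (ga g Q - Q) = 0 := fun g => by
    rw [nsmul_sub, ← map_nsmul, a g trivial, sub_self]
  refine ⟨⟨((IsLocallyConstant.iff_eventually_eq _).2 fun g => ev_ga g Q).comp fun z => z - Q,
    fun g j => by simp only [dd_apply, ga_mul, map_sub]; abel, ⟨k, t⟩, ?_, sub_eq_zero.2 e⟩,
    Q, fun _ _ => rfl⟩
  rintro g ⟨l, n, P, o, i⟩
  have : Fact l.Prime := ⟨o.1⟩
  obtain ⟨κ, _, _, _, rd, h1, h2, -⟩ := exists_rd (fun b => n (hS l o.1 b)) o.2.1 o.2.2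
  exact inj_tors h1 k (t g) (by rw [dd_apply, map_sub, h2 g i, sub_self])

theorem zk_eq : Zk A B S c = (Mc A B c).map (dd A B) :=
  le_antisymm (fun x ⟨h, Q, e⟩ => by
    obtain rfl : x = dd A B Q := funext fun g => e g trivial
    exact ⟨Q, mc_of h, rfl⟩) fun _ ⟨_, h, e⟩ => e ▸ dd_mem hS h

theorem ac_le : (Ac A B c).map (dd A B) ≤ Zk A B S c := zk_eq hS ▸ AddSubgroup.map_mono Ac_le

/-- **rank zero** -/
theorem zk_zero (h : ∀ Q ∈ Fx A B ⊤, IsOfFinAddOrder Q) : Zk A B S c = (Ac A B c).map (dd A B) :=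
  le_antisymm (zk_eq hS ▸ fun _ ⟨Q, a, e⟩ => e ▸ dd_tor a (a.1.elim fun k b =>
    (isOfFinAddOrder_nsmul.1 (h _ b)).resolve_right (pow_ne_zero _ pp_ne))) (ac_le hS)

/-- **rank one** -/
theorem ex_dl (hD : 4 * A ^ 3 + 27 * B ^ 2 ≠ 0) (hc : c * c = 1) {e : Pt A B} (he : e ∈ Fx A B ⊤)
    (nt : ¬ IsOfFinAddOrder e) (gn : ∀ Q ∈ Fx A B ⊤, ∃ n : ℤ, IsOfFinAddOrder (Q - n • e)) :
    ∃ δ : Zk A B S c →+ Dv, Function.Surjective δ ∧
      δ.ker = ((Ac A B c).map (dd A B)).addSubgroupOf _ ∧ ∀ (x : Zk A B S c) (Q : Pt A B) (k : ℕ)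
        (n : ℤ), x = dd A B Q → IsOfFinAddOrder (pp ^ k • Q - n • e) → δ x = n • u k := by
  have ex : ∀ x : Zk A B S c, ∃ (Q : Pt A B) (k : ℕ) (n : ℤ), x = dd A B Q ∧
      IsOfFinAddOrder (pp ^ k • Q - n • e) := fun ⟨x, hx⟩ => by
    obtain ⟨Q, ⟨⟨k, a⟩, -⟩, rfl⟩ := (zk_eq hS).le hx
    exact ⟨Q, k, (gn _ a).imp fun _ b => ⟨rfl, b⟩⟩
  have un : ∀ {Q Q' : Pt A B} {k j : ℕ} {n m : ℤ}, dd A B Q = dd A B Q' →
      IsOfFinAddOrder (pp ^ k • Q - n • e) → IsOfFinAddOrder (pp ^ j • Q' - m • e) →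
      n • u k = m • u j := fun {Q Q' k j n m} h a b => by
    obtain ⟨r, t⟩ := gn (Q - Q') fun g _ => ker_dd.1 (by rw [AddMonoidHom.mem_ker, map_sub, h,
      sub_self]) g
    have := ((t.nsmul (n := pp ^ (k + j))).add (b.nsmul (n := pp ^ k))).add (a.nsmul (n := pp ^ j)).neg
    rw [show pp ^ (k + j) • (Q - Q' - r • e) + pp ^ k • (pp ^ j • Q' - m • e) +
      -(pp ^ j • (pp ^ k • Q - n • e)) = (pp ^ j * n - pp ^ k * m - pp ^ (k + j) * r) • e by module]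
      at this
    have z : pp ^ j * n - pp ^ k * m - pp ^ (k + j) * r = 0 := by_contra fun z => nt (by
      obtain ⟨i, i0, e⟩ := isOfFinAddOrder_iff_zsmul_eq_zero.1 this
      exact isOfFinAddOrder_iff_zsmul_eq_zero.2 ⟨_, mul_ne_zero i0 z, (mul_zsmul ..).trans e⟩)
    rw [← Ba.pow_u j k, ← Ba.pow_u k j, add_comm j k, ← sub_eq_zero, ← (Ba.u_ord (pp ^ (k + j) * r)
      (k + j)).2 ⟨r, rfl⟩, ← sub_eq_zero, ← zero_smul ℤ (u (k + j)), ← z]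
    module
  choose q k n h1 h2 using ex
  let δ : Zk A B S c →+ Dv := .mk' (fun x => n x • u (k x)) fun x y => by
    refine (un (Q' := q x + q y) (j := k x + k y) (m := pp ^ k y * n x + pp ^ k x * n y)
      (by rw [map_add, ← h1, ← h1, ← h1]; rfl) (h2 _) ?_).trans ?_
    · exact (by module : pp ^ k y • (pp ^ k x • q x - n x • e) + pp ^ k x • (pp ^ k y • q y - n y • e) =
        pp ^ (k x + k y) • (q x + q y) - (pp ^ k y * n x + pp ^ k x * n y) • e) ▸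
        ((h2 x).nsmul (n := pp ^ k y)).add ((h2 y).nsmul (n := pp ^ k x))
    · rw [← Ba.pow_u (k y) (k x), ← Ba.pow_u (k x) (k y), add_comm (k y)]
      module
  have sp : ∀ (x : Zk A B S c) (Q : Pt A B) (k : ℕ) (n : ℤ), x = dd A B Q →
      IsOfFinAddOrder (pp ^ k • Q - n • e) → δ x = n • u k :=
    fun x Q j m a b => un ((h1 x).symm.trans a) (h2 x) b
  refine ⟨δ, fun d => ?_, AddSubgroup.ext fun x => ⟨fun a => ?_, fun ⟨Q, ⟨⟨j, a⟩, _⟩, b⟩ => ?_⟩, sp⟩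
  · obtain ⟨d, rfl⟩ := Ba.dv_div two_ne_zero d
    obtain ⟨j, a⟩ := Ba.dv_tor d
    obtain ⟨m, rfl⟩ := Ba.tk_gen a
    obtain ⟨R, hR⟩ := mul_surj (L := Qb) two_ne_zero (hq hD) (pow_ne_zero j pp_ne) e
    have t : pp ^ j • (R + ga c R) = (2 : ℤ) • e := by
      rw [nsmul_add, ← map_nsmul, hR, he c trivial, two_zsmul]
    refine ⟨m • ⟨_, dd_mem hS (Q := R + ga c R) ⟨⟨j, t ▸ zsmul_mem he 2⟩, by
      rw [map_add, ← ga_mul, hc, ga_one, add_comm]⟩⟩, ?_⟩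
    rw [map_zsmul, sp _ _ j 2 rfl (by rw [t, sub_self]; exact IsOfFinAddOrder.zero)]
    module
  · obtain ⟨m, b⟩ := (Ba.u_ord _ _).1 a
    have t := h2 x
    rw [b, show pp ^ k x • q x - (pp ^ k x * m) • e = pp ^ k x • (q x - m • e) by module] at t
    have := dd_tor (sub_mem (mc_of (h1 x ▸ x.2.1)) (Fx_le (zsmul_mem he m)))
      ((isOfFinAddOrder_nsmul.1 t).resolve_right (pow_ne_zero _ pp_ne))
    rwa [map_sub, dd_fx (zsmul_mem he m), sub_zero, ← h1] at this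
  · exact (sp x Q j 0 b.symm (by rw [a, zero_zsmul, sub_zero]; exact IsOfFinAddOrder.zero)).trans
      (zero_zsmul _)

end Vale.Agent.P014U.Bt
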